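import Vale.Agent.P247V.Et
import Vale.Agent.P247A.Spec2

/-!
# P247, stage 2: cyclic coverings (helper19)
-/

set_option linter.all false

open scoped Manifold ContDiff Topology
open Set Filter MeasureTheory

noncomputable section

namespace Vale.Agent.P247V

open Vale.Agent.P247.SCY Vale.Agent.P247.SCY.HS Vale.Agent.P247X Vale.Agent.P247M
open Vale.Agent.P247A (Circ)

/-! ### lifted charts -/

section lift

variable {X Y : Type} [TopologicalSpace X] [ChartedSpace E4 X] [TopologicalSpace Y] {p : Y → X}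

/-- the lifted chart -/
def liftCh (hp : IsLocalHomeomorph p) (y : Y) : OpenPartialHomeomorph Y E4 :=
  (hp y).choose.trans (chartAt E4 (p y))

theorem liftCh_apply (hp : IsLocalHomeomorph p) (y y' : Y) :
    liftCh hp y y' = chartAt E4 (p y) (p y') := by
  show chartAt E4 (p y) ((hp y).choose y') = _
  rw [← (hp y).choose_spec.2]

theorem liftCh_symm (hp : IsLocalHomeomorph p) (y : Y) {z : E4} (hz : z ∈ (liftCh hp y).target) :
    z ∈ (chartAt E4 (p y)).target ∧ p ((liftCh hp y).symm z) = (chartAt E4 (p y)).symm z := by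
  refine ⟨hz.1, ?_⟩
  have h := (hp y).choose.right_inv hz.2
  exact (congrFun (hp y).choose_spec.2 _).trans h

theorem liftCh_source (hp : IsLocalHomeomorph p) (y : Y) {y' : Y}
    (h : y' ∈ (liftCh hp y).source) : p y' ∈ (chartAt E4 (p y)).source := by
  have h2 : (hp y).choose y' ∈ (chartAt E4 (p y)).source := h.2
  rwa [← congrFun (hp y).choose_spec.2 y'] at h2

/-- the lifted atlas -/
@[reducible] def liftCS (hp : IsLocalHomeomorph p) : ChartedSpace E4 Y where
  atlas := range (liftCh hp)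
  chartAt := liftCh hp
  mem_chart_source y := ⟨(hp y).choose_spec.1, by
    show (hp y).choose y ∈ (chartAt E4 (p y)).source
    rw [← congrFun (hp y).choose_spec.2 y]
    exact mem_chart_source E4 (p y)⟩
  chart_mem_atlas y := mem_range_self y

theorem liftEt (hp : IsLocalHomeomorph p) : @Et X Y _ _ _ (liftCS hp) p :=
  letI := liftCS hp
  ⟨hp, fun y => Eventually.of_forall fun y' => liftCh_apply hp y y'⟩

theorem liftMfd [IsManifold (𝓡 4) ∞ X] (hp : IsLocalHomeomorph p) :
    @IsManifold ℝ _ E4 _ _ E4 _ (𝓡 4) ∞ Y _ (liftCS hp) := by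
  letI := liftCS hp
  apply isManifold_of_contDiffOn
  rintro _ _ ⟨y, rfl⟩ ⟨y', rfl⟩
  simp only [modelWithCornersSelf_coe, modelWithCornersSelf_coe_symm, Function.comp_id,
    Function.id_comp, range_id, inter_univ, preimage_id_eq, id]
  have h1 : ContMDiffOn (𝓡 4) (𝓡 4) ∞ (chartAt E4 (p y') ∘ (chartAt E4 (p y)).symm)
      ((liftCh hp y).symm.trans (liftCh hp y')).source := by
    refine contMDiffOn_chart.comp (contMDiffOn_chart_symm.mono fun z hz => hz.1.1) fun z hz => ?_
    have h2 : p ((liftCh hp y).symm z) ∈ _ := liftCh_source hp y' hz.2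
    rw [(liftCh_symm hp y hz.1).2] at h2
    exact h2
  refine (contMDiffOn_iff_contDiffOn.1 h1).congr fun z hz => ?_
  show liftCh hp y' ((liftCh hp y).symm z) = _
  rw [liftCh_apply, (liftCh_symm hp y hz.1).2]
  rfl

end lift

/-! ### roots -/

theorem ev_const {T : Type*} {l : Filter T} {c : T → ℂ} {a : ℂ} {n : ℕ} (hn : n ≠ 0)
    (hc : Tendsto c l (𝓝 a)) (h : ∀ᶠ t in l, c t ^ n = a ^ n) : ∀ᶠ t in l, c t = a := by
  have h1 : ({ζ : ℂ | ζ ^ n = a ^ n} \ {a}).Finite := by
    refine Set.Finite.subset (s := (Polynomial.nthRoots n (a ^ n)).toFinset)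
      (Finset.finite_toSet _) fun ζ hζ => ?_
    rw [Finset.mem_coe, Multiset.mem_toFinset, Polynomial.mem_nthRoots (Nat.pos_of_ne_zero hn)]
    exact hζ.1
  have h2 : ({ζ : ℂ | ζ ^ n = a ^ n} \ {a})ᶜ ∈ 𝓝 a :=
    h1.isClosed.isOpen_compl.mem_nhds (fun h => h.2 rfl)
  filter_upwards [hc h2, h] with t h3 h4
  by_contra h5
  exact h3 ⟨h4, h5⟩

/-- the local root -/
def rt (n : ℕ) (z0 a0 a : ℂ) : ℂ := z0 * Complex.exp (Complex.log (a / a0) / n)

theorem rt_pow {n : ℕ} (hn : n ≠ 0) {z0 a0 a : ℂ} (h : z0 ^ n = a0) (h0 : a0 ≠ 0) (ha : a ≠ 0) :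
    rt n z0 a0 a ^ n = a := by
  rw [rt, mul_pow, h, ← Complex.exp_nat_mul, mul_div_cancel₀ _ (Nat.cast_ne_zero.2 hn),
    Complex.exp_log (div_ne_zero ha h0), mul_div_cancel₀ _ h0]

theorem rt_self (n : ℕ) (z0 : ℂ) {a0 : ℂ} (h0 : a0 ≠ 0) : rt n z0 a0 a0 = z0 := by
  simp [rt, div_self h0]

theorem rt_cd (n : ℕ) (z0 : ℂ) {a0 a : ℂ} (h : a / a0 ∈ Complex.slitPlane) :
    ContDiffAt ℝ ∞ (rt n z0 a0) a := by
  have h1 : ContDiffAt ℂ ∞ (rt n z0 a0) a := by
    unfold rt
    refine contDiffAt_const.mul (ContDiffAt.cexp (ContDiffAt.div_const ?_ _))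
    exact (Complex.contDiffAt_log h).comp a (contDiffAt_id.div_const _)
  exact h1.restrict_scalars ℝ

theorem root_ev {T : Type*} {l : Filter T} {g f : T → ℂ} {g0 : ℂ} {n : ℕ} (hn : n ≠ 0)
    (h0 : g0 ≠ 0) (hg : Tendsto g l (𝓝 g0)) (h : ∀ᶠ t in l, g t ^ n = f t) :
    ∀ᶠ t in l, g t = rt n g0 (g0 ^ n) (f t) := by
  have ha : g0 ^ n ≠ 0 := pow_ne_zero _ h0
  have hf : Tendsto f l (𝓝 (g0 ^ n)) := (hg.pow n).congr' h
  have h1 : Tendsto (fun t => rt n g0 (g0 ^ n) (f t)) l (𝓝 g0) := by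
    have := (rt_cd n g0 (a0 := g0 ^ n) (a := g0 ^ n) (by simp [div_self ha])).continuousAt.tendsto
    rw [rt_self n g0 ha] at this
    exact this.comp hf
  have h2 : Tendsto (fun t => g t / rt n g0 (g0 ^ n) (f t)) l (𝓝 1) := by
    have := hg.div h1 h0
    rwa [div_self h0] at this
  have h3 : ∀ᶠ t in l, f t ≠ 0 := hf.eventually_ne ha
  have h4 := ev_const hn h2 (by
    filter_upwards [h, h3] with t a b
    rw [div_pow, rt_pow hn rfl ha b, a, div_self b, one_pow])
  filter_upwards [h4, h1.eventually_ne h0] with t a b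
  exact (div_eq_one_iff_eq b).1 a

section sm

variable {X : Type} [TopologicalSpace X] [ChartedSpace E4 X]

/-- continuous roots of smooth functions are smooth -/
theorem smC_root {g f : X → ℂ} {x : X} {n : ℕ} (hn : n ≠ 0) (h0 : g x ≠ 0) (hg : ContinuousAt g x)
    (h : ∀ᶠ t in 𝓝 x, g t ^ n = f t) (hf : SmC f x) : SmC g x := by
  have h1 := root_ev hn h0 hg h
  have h2 : SmC (fun t => rt n (g x) (g x ^ n) (f t)) x := by
    refine ContDiffAt.comp_contMDiffAt (g := rt n (g x) (g x ^ n)) (rt_cd n _ ?_) hf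
    rw [← h.self_of_nhds, div_self (pow_ne_zero _ h0)]
    exact Complex.one_mem_slitPlane
  exact h2.congr_of_eventuallyEq h1

theorem circ_root {g f : X → ℂ} {n : ℕ} (hn : n ≠ 0) (hf : Circ f) (hg : Continuous g)
    (h : ∀ x, g x ^ n = f x) : Circ g := by
  have h1 : ∀ x, ‖g x‖ = 1 := fun x => by
    have := hf.2 x
    rw [← h, norm_pow] at this
    exact (pow_eq_one_iff_of_nonneg (norm_nonneg _) hn).1 this
  exact ⟨fun x => smC_root hn (norm_ne_zero_iff.1 (by rw [h1]; exact one_ne_zero))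
    hg.continuousAt (Eventually.of_forall h) (hf.1 x), h1⟩

end sm

/-! ### the total space -/

section tot

variable {X : Type} [TopologicalSpace X]

/-- the total space of the cyclic covering -/
def Tot (f : X → ℂ) (n : ℕ) : Type := {q : X × ℂ // q.2 ^ n = f q.1}

instance (f : X → ℂ) (n : ℕ) : TopologicalSpace (Tot f n) :=
  inferInstanceAs (TopologicalSpace {q : X × ℂ // q.2 ^ n = f q.1})

variable {f : X → ℂ} {n : ℕ}

theorem Tot.cp : Continuous fun y : Tot f n => y.1.1 := continuous_fst.comp continuous_subtype_val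

theorem Tot.cz : Continuous fun y : Tot f n => y.1.2 := continuous_snd.comp continuous_subtype_val

theorem Tot.lh (hn : n ≠ 0) (hf : Continuous f) (h0 : ∀ x, f x ≠ 0) :
    IsLocalHomeomorph fun y : Tot f n => y.1.1 := by
  classical
  have hz : ∀ y : Tot f n, y.1.2 ≠ 0 := fun y h => h0 y.1.1 (by rw [← y.2, h, zero_pow hn])
  refine IsLocalHomeomorph.mk _ fun y0 => ?_
  let r : X → ℂ := fun x => rt n y0.1.2 (f y0.1.1) (f x)
  have hr : ∀ x, r x ^ n = f x := fun x => rt_pow hn y0.2 (h0 _) (h0 _)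
  let V : Set X := {x | f x / f y0.1.1 ∈ Complex.slitPlane}
  have hV : IsOpen V := Complex.isOpen_slitPlane.preimage (hf.div_const _)
  have hrc : ∀ x ∈ V, ContinuousAt r x := fun x hx =>
    (rt_cd n _ hx).continuousAt.comp hf.continuousAt
  let s : X → Tot f n := fun x => ⟨(x, r x), hr x⟩
  have hS : IsOpen {y : Tot f n | y.1.1 ∈ V ∧ y.1.2 = r y.1.1} := by
    refine isOpen_iff_mem_nhds.2 fun y hy => ?_
    have h1 : Tendsto (fun t : Tot f n => r t.1.1) (𝓝 y) (𝓝 y.1.2) := by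
      rw [hy.2]
      exact (hrc _ hy.1).tendsto.comp Tot.cp.continuousAt
    have h2 := root_ev (f := fun t : Tot f n => f t.1.1) hn (hz y) h1
      (Eventually.of_forall fun t => hr _)
    have h3 := root_ev (f := fun t : Tot f n => f t.1.1) hn (hz y) (Tot.cz.tendsto y)
      (Eventually.of_forall fun t => t.2)
    filter_upwards [h2, h3, Tot.cp.continuousAt.eventually (hV.mem_nhds hy.1)] with t a b c
    exact ⟨c, b.trans a.symm⟩
  refine ⟨{ toFun := fun y => y.1.1
            invFun := s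
            source := {y : Tot f n | y.1.1 ∈ V ∧ y.1.2 = r y.1.1}
            target := V
            map_source' := fun y hy => hy.1
            map_target' := fun x hx => ⟨hx, rfl⟩
            left_inv' := fun y hy => Subtype.ext (Prod.ext rfl hy.2.symm)
            right_inv' := fun x _ => rfl
            open_source := hS
            open_target := hV
            continuousOn_toFun := Tot.cp.continuousOn
            continuousOn_invFun := fun x hx => ContinuousAt.continuousWithinAt ?_ }, ⟨?_, ?_⟩,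
      fun _ _ => rfl⟩
  · exact (Topology.IsInducing.subtypeVal.continuousAt_iff).2 (continuousAt_id.prodMk (hrc x hx))
  · show f y0.1.1 / f y0.1.1 ∈ Complex.slitPlane
    rw [div_self (h0 _)]
    exact Complex.one_mem_slitPlane
  · exact (rt_self n _ (h0 _)).symm

theorem Tot.cpt [CompactSpace X] (hn : n ≠ 0) (hf : Continuous f) (h1 : ∀ x, ‖f x‖ = 1) :
    CompactSpace (Tot f n) := by
  have h2 : IsClosed {q : X × ℂ | q.2 ^ n = f q.1} :=
    isClosed_eq (continuous_snd.pow n) (hf.comp continuous_fst)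
  have h3 : IsCompact {q : X × ℂ | q.2 ^ n = f q.1} := by
    refine (isCompact_univ.prod (isCompact_sphere (0 : ℂ) 1)).of_isClosed_subset h2 fun q hq => ?_
    refine ⟨mem_univ _, mem_sphere_zero_iff_norm.2 ?_⟩
    have := h1 q.1
    rw [← show q.2 ^ n = f q.1 from hq, norm_pow] at this
    exact (pow_eq_one_iff_of_nonneg (norm_nonneg _) hn).1 this
  exact isCompact_iff_compactSpace.1 h3

instance [T2Space X] : T2Space (Tot f n) :=
  inferInstanceAs (T2Space {q : X × ℂ // q.2 ^ n = f q.1})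

/-- the deck transformations -/
def Tot.dk (ζ : ℂ) (h : ζ ^ n = 1) (y : Tot f n) : Tot f n :=
  ⟨(y.1.1, ζ * y.1.2), by rw [mul_pow, h, one_mul]; exact y.2⟩

theorem Tot.dk_cont (ζ : ℂ) (h : ζ ^ n = 1) : Continuous (Tot.dk (f := f) ζ h) :=
  (Tot.cp.prodMk (continuous_const.mul Tot.cz)).subtype_mk _

theorem Tot.conn [ConnectedSpace X] [CompactSpace X] [T2Space X] [LocallyConnectedSpace (Tot f n)]
    (hn : n ≠ 0) (hf : Continuous f) (h1 : ∀ x, ‖f x‖ = 1)
    (hr : ∀ d : ℕ, 2 ≤ d → d ∣ n → ∀ r : X → ℂ, Continuous r → ¬ ∀ x, r x ^ d = f x) :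
    ConnectedSpace (Tot f n) := by
  classical
  have h0 : ∀ x, f x ≠ 0 := fun x => norm_ne_zero_iff.1 (by rw [h1]; exact one_ne_zero)
  have hz : ∀ y : Tot f n, y.1.2 ≠ 0 := fun y h => h0 y.1.1 (by rw [← y.2, h, zero_pow hn])
  haveI := Tot.cpt hn hf h1
  have hl := Tot.lh hn hf h0
  obtain ⟨x0⟩ : Nonempty X := inferInstance
  obtain ⟨z0, hz0⟩ := IsAlgClosed.exists_pow_nat_eq (f x0) (Nat.pos_of_ne_zero hn)
  let y0 : Tot f n := ⟨(x0, z0), hz0⟩
  set C := connectedComponent y0 with hC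
  have hCo : IsOpen C := isOpen_connectedComponent
  have hCc : IsClosed C := isClosed_connectedComponent
  have hs : ∀ x, ∃ y ∈ C, y.1.1 = x := by
    have h2 : IsClopen ((fun y : Tot f n => y.1.1) '' C) :=
      ⟨(hCc.isCompact.image Tot.cp).isClosed, hl.isOpenMap _ hCo⟩
    have h3 := h2.eq_univ ⟨_, y0, mem_connectedComponent, rfl⟩
    intro x
    exact (h3 ▸ mem_univ x : x ∈ (fun y : Tot f n => y.1.1) '' C)
  have hom := Complex.isPrimitiveRoot_exp n hn
  set om := Complex.exp (2 * Real.pi * Complex.I / n) with homd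
  have hom0 : om ≠ 0 := Complex.exp_ne_zero _
  have hk : ∀ k : ℤ, (om ^ k) ^ n = 1 := fun k => by
    rw [← zpow_natCast, ← zpow_mul, mul_comm, zpow_mul, zpow_natCast, hom.pow_eq_one, one_zpow]
  let τ : ℤ → Tot f n → Tot f n := fun k => Tot.dk (om ^ k) (hk k)
  have τadd : ∀ k l y, τ (k + l) y = τ k (τ l y) := fun k l y =>
    Subtype.ext (Prod.ext rfl (by
      show om ^ (k + l) * y.1.2 = om ^ k * (om ^ l * y.1.2)
      rw [zpow_add₀ hom0, mul_assoc]))
  have τ0 : ∀ y, τ 0 y = y := fun y => Subtype.ext (Prod.ext rfl (by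
      show om ^ (0 : ℤ) * y.1.2 = y.1.2
      rw [zpow_zero, one_mul]))
  have τC : ∀ k, ∀ y ∈ C, τ k y ∈ C → ∀ y' ∈ C, τ k y' ∈ C := by
    intro k y hy h y' hy'
    have h2 := (isPreconnected_connectedComponent (x := y0)).image _
      (Tot.dk_cont (f := f) (om ^ k) (hk k)).continuousOn
    have h3 := h2.subset_connectedComponent (mem_image_of_mem _ hy) (mem_image_of_mem _ hy')
    rw [← connectedComponent_eq h] at h3
    exact h3
  have hy0 : y0 ∈ C := mem_connectedComponent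
  let H : AddSubgroup ℤ :=
    { carrier := {k | τ k y0 ∈ C}
      zero_mem' := by show τ 0 y0 ∈ C; rw [τ0]; exact hy0
      add_mem' := fun {k l} a b => by
        show τ (k + l) y0 ∈ C
        rw [τadd]
        exact τC k y0 hy0 a _ b
      neg_mem' := fun {k} a => by
        show τ (-k) y0 ∈ C
        refine τC (-k) _ a ?_ y0 hy0
        rw [← τadd, neg_add_cancel, τ0]
        exact hy0 }
  obtain ⟨a, ha⟩ := Int.subgroup_cyclic H
  have hH : ∀ k : ℤ, τ k y0 ∈ C ↔ ((a.natAbs : ℕ) : ℤ) ∣ k := fun k => by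
    show k ∈ H ↔ _
    rw [ha, AddSubgroup.mem_closure_singleton, Int.natAbs_dvd]
    exact ⟨fun ⟨m, hm⟩ => ⟨m, by rw [← hm, smul_eq_mul, mul_comm]⟩,
      fun ⟨m, hm⟩ => ⟨m, by rw [hm, smul_eq_mul, mul_comm]⟩⟩
  set d := a.natAbs with hd
  have hdn : d ∣ n := by
    rw [← Int.natCast_dvd_natCast, ← hH]
    have : τ n y0 = y0 := Subtype.ext (Prod.ext rfl (by
      show om ^ (n : ℤ) * y0.1.2 = y0.1.2
      rw [zpow_natCast, hom.pow_eq_one, one_mul]))
    rw [this]
    exact hy0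
  obtain ⟨h, hh⟩ := hdn
  have fib : ∀ y y' : Tot f n, y.1.1 = y'.1.1 → ∃ k : ℤ, y' = τ k y := by
    intro y y' e
    haveI : NeZero n := ⟨hn⟩
    obtain ⟨i, -, hi⟩ := hom.eq_pow_of_pow_eq_one (ξ := y'.1.2 / y.1.2) (by
      rw [div_pow, y.2, y'.2, e, div_self (h0 _)])
    refine ⟨i, Subtype.ext (Prod.ext e.symm ?_)⟩
    show y'.1.2 = om ^ (i : ℤ) * y.1.2
    rw [zpow_natCast, hi, div_mul_cancel₀ _ (hz y)]
  choose s hs1 hs2 using hs
  have hG : ∀ y ∈ C, (s y.1.1).1.2 ^ h = y.1.2 ^ h := by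
    intro y hy
    obtain ⟨k, e⟩ := fib y (s y.1.1) (hs2 _).symm
    obtain ⟨m, rfl⟩ := (hH k).1 (τC k y hy (e ▸ hs1 _) y0 hy0)
    rw [e]
    show (om ^ ((d : ℤ) * m) * y.1.2) ^ h = _
    rw [mul_pow, ← zpow_natCast (om ^ _), ← zpow_mul, mul_right_comm, ← Nat.cast_mul, ← hh,
      zpow_mul, zpow_natCast, hom.pow_eq_one, one_zpow, one_mul]
  have hGc : Continuous fun x => (s x).1.2 ^ h := by
    refine continuous_iff_continuousAt.2 fun x => ?_
    have h2 := hl.map_nhds_eq (s x)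
    simp only [hs2] at h2
    rw [ContinuousAt, ← h2, tendsto_map'_iff]
    refine ((Tot.cz.pow h).tendsto (s x)).congr' ?_
    filter_upwards [hCo.mem_nhds (hs1 x)] with y hy
    exact (hG y hy).symm
  have hd1 : d = 1 := by
    by_contra h2
    have h3 : d ≠ 0 := fun h3 => hn (by rw [hh, h3, zero_mul])
    refine hr d (by omega) ⟨h, hh⟩ _ hGc fun x => ?_
    rw [← pow_mul, mul_comm, ← hh, (s x).2, hs2]
  refine connectedSpace_iff_connectedComponent.2 ⟨y0, eq_univ_of_forall fun y => ?_⟩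
  obtain ⟨k, e⟩ := fib (s y.1.1) y (hs2 _)
  rw [e]
  exact τC k y0 hy0 ((hH k).2 (by rw [hd1]; exact one_dvd _)) _ (hs1 _)

end tot

/-! ### cyclic coverings of closed manifolds -/

/-- the `n`-fold cyclic covering on which `f` has the root `z` -/
structure Cyc (X : Type) [Cl4 X] (f : X → ℂ) (n : ℕ) where
  Y : Type
  cl : Cl4 Y
  p : Y → X
  z : Y → ℂ
  et : Et p
  circ : Circ z
  pow : ∀ y, z y ^ n = f (p y)
  inj : ∀ y y', p y = p y' → z y = z y' → y = y'
  surj : ∀ x c, c ^ n = f x → ∃ y, p y = x ∧ z y = c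

attribute [instance] Cyc.cl

/-- existence of connected cyclic coverings -/
theorem exists_cyc {X : Type} [Cl4 X] {f : X → ℂ} (hf : Circ f) {n : ℕ} (hn : n ≠ 0)
    (hr : ∀ d : ℕ, 2 ≤ d → d ∣ n → ∀ r : X → ℂ, Circ r → ¬ ∀ x, r x ^ d = f x) :
    Nonempty (Cyc X f n) := by
  have hc := hf.1.continuous
  have h0 : ∀ x, f x ≠ 0 := fun x => norm_ne_zero_iff.1 (by rw [hf.2]; exact one_ne_zero)
  have hl := Tot.lh hn hc h0
  letI : ChartedSpace E4 (Tot f n) := liftCS hl
  letI : MeasurableSpace (Tot f n) := borel _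
  haveI : LocallyConnectedSpace (Tot f n) := ChartedSpace.locallyConnectedSpace E4 _
  letI cl : Cl4 (Tot f n) :=
    { mfd := liftMfd hl
      cpt := Tot.cpt hn hc hf.2
      t2 := inferInstance
      conn := Tot.conn hn hc hf.2 fun d h2 h3 r h4 h5 =>
        hr d h2 h3 r (circ_root (by omega) hf h4 h5) h5
      borel := ⟨rfl⟩ }
  have et : Et fun y : Tot f n => y.1.1 := liftEt hl
  exact ⟨{ Y := Tot f n
           cl := cl
           p := fun y => y.1.1
           z := fun y => y.1.2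
           et := et
           circ := circ_root (f := fun y : Tot f n => f y.1.1) hn
             ⟨fun y => et.smC (hf.1 _), fun y => hf.2 _⟩ Tot.cz fun y => y.2
           pow := fun y => y.2
           inj := fun y y' a b => Subtype.ext (Prod.ext a b)
           surj := fun x c h => ⟨⟨(x, c), h⟩, rfl, rfl⟩ }⟩

namespace Cyc

variable {X : Type} [Cl4 X] {f : X → ℂ} {n : ℕ} (C : Cyc X f n)

theorem z_ne (y : C.Y) : C.z y ≠ 0 := norm_ne_zero_iff.1 (by rw [C.circ.2]; exact one_ne_zero)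

/-- the sheet given by a root `r` -/
def sheet (r : X → ℂ) : Set C.Y := {y | C.z y = r (C.p y)}

theorem sheet_inj (r : X → ℂ) : InjOn C.p (C.sheet r) := fun y hy y' hy' e =>
  C.inj y y' e (by rw [hy, hy', e])

theorem sheet_image {r : X → ℂ} {U : Set X} (h : ∀ x ∈ U, r x ^ n = f x) :
    C.p '' (C.sheet r ∩ C.p ⁻¹' U) = U := by
  refine (image_subset_iff.2 fun y hy => hy.2).antisymm fun x hx => ?_
  obtain ⟨y, rfl, h2⟩ := C.surj x (r x) (h x hx)
  exact ⟨y, ⟨h2, hx⟩, rfl⟩

theorem sheet_open (hn : n ≠ 0) {r : X → ℂ} {U : Set X} (hU : IsOpen U) (hr : ContinuousOn r U)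
    (h : ∀ x ∈ U, r x ^ n = f x) : IsOpen (C.sheet r ∩ C.p ⁻¹' U) := by
  refine isOpen_iff_mem_nhds.2 fun y hy => ?_
  have h0 : ∀ᶠ t in 𝓝 y, C.p t ∈ U := C.et.cont.continuousAt.eventually (hU.mem_nhds hy.2)
  have h1 : Tendsto (fun t => r (C.p t)) (𝓝 y) (𝓝 (C.z y)) := by
    rw [hy.1]
    exact (hr.continuousAt (hU.mem_nhds hy.2)).tendsto.comp C.et.cont.continuousAt
  have h2 := root_ev (f := fun t => f (C.p t)) hn (C.z_ne y) h1 (h0.mono fun t ht => h _ ht)
  have h3 := root_ev (f := fun t => f (C.p t)) hn (C.z_ne y) (C.circ.1.continuous.tendsto y)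
    (Eventually.of_forall C.pow)
  filter_upwards [h0, h2, h3] with t a b c
  exact ⟨c.trans b.symm, a⟩

/-- integration over the covering -/
theorem integral_up (hf : Circ f) (hn : n ≠ 0) {μ : Form X 4} (hμ : Smooth μ) {g : X → ℝ}
    (hg : Continuous g) :
    ∫ y, g (C.p y) ∂(vol (up C.p μ)) = n * ∫ x, g x ∂(vol μ) := by
  have h0 : ∀ x, f x ≠ 0 := fun x => norm_ne_zero_iff.1 (by rw [hf.2]; exact one_ne_zero)
  have hom := Complex.isPrimitiveRoot_exp n hn
  set om := Complex.exp (2 * Real.pi * Complex.I / n) with homd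
  let r : Fin n → X → ℂ := fun j x => rt n (om ^ (j : ℕ)) 1 (f x)
  have hr : ∀ j x, r j x ^ n = f x := fun j x =>
    rt_pow hn (by rw [← pow_mul, mul_comm, pow_mul, hom.pow_eq_one, one_pow]) one_ne_zero (h0 x)
  have hm : ∀ j, MeasurableSet (C.sheet (r j)) := fun j => by
    refine measurableSet_eq_fun C.circ.1.continuous.measurable ?_
    have h1 : Measurable fun y => f (C.p y) := (hf.1.continuous.comp C.et.cont).measurable
    exact ((h1.div_const _).clog.div_const _).cexp.const_mul _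
  have hd : Pairwise (Function.onFun Disjoint fun j => C.sheet (r j)) := fun i j hij =>
    Set.disjoint_left.2 fun y a b => hij (Fin.ext (hom.pow_inj i.2 j.2
      (mul_right_cancel₀ (Complex.exp_ne_zero _) ((show C.z y = r i _ from a).symm.trans b))))
  have hu : ⋃ j, C.sheet (r j) = univ := eq_univ_of_forall fun y => by
    haveI : NeZero n := ⟨hn⟩
    have h1 : rt n 1 1 (f (C.p y)) ^ n = f (C.p y) := rt_pow hn (one_pow n) one_ne_zero (h0 _)
    have h2 : rt n 1 1 (f (C.p y)) ≠ 0 := mul_ne_zero one_ne_zero (Complex.exp_ne_zero _)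
    obtain ⟨i, hi, e⟩ := hom.eq_pow_of_pow_eq_one (ξ := C.z y / rt n 1 1 (f (C.p y))) (by
      rw [div_pow, C.pow, h1, div_self (h0 _)])
    refine mem_iUnion.2 ⟨⟨i, hi⟩, ?_⟩
    show C.z y = om ^ i * _
    rw [e, rt, one_mul, div_mul_cancel₀ _ (Complex.exp_ne_zero _)]
  haveI := finite_vol (C.et.smooth_up hμ)
  have hi : Integrable (fun y => g (C.p y)) (vol (up C.p μ)) :=
    (hg.comp C.et.cont).integrable_of_hasCompactSupport (HasCompactSupport.of_compactSpace _)
  rw [← setIntegral_univ, ← hu, integral_iUnion_fintype hm hd fun j => hi.integrableOn]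
  have h3 : ∀ j, ∫ y in C.sheet (r j), g (C.p y) ∂(vol (up C.p μ)) = ∫ x, g x ∂(vol μ) := by
    intro j
    have h4 := C.sheet_image (r := r j) (U := univ) fun x _ => hr j x
    rw [preimage_univ, inter_univ] at h4
    rw [C.et.setIntegral_up μ (hm j) (C.sheet_inj _) hg.aestronglyMeasurable, h4, setIntegral_univ]
  simp only [h3, Finset.sum_const, Finset.card_univ, Fintype.card_fin, nsmul_eq_mul]

theorem pair_up (hf : Circ f) (hn : n ≠ 0) {μ : Form X 4} (hμ : Volume μ) {α β : Form X 2}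
    (hα : Cont α) (hβ : Cont β) :
    pair (up C.p μ) (up C.p α) (up C.p β) = n * pair μ α β :=
  C.integral_up hf hn hμ.smooth (continuous_quot_of_cont hμ hα hβ)

end Cyc

end Vale.Agent.P247V
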