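import Vale.Agent.P247M.PInt
import Vale.Agent.P247M.LBOps

/-!
# P247, stage 2: local homeomorphisms which are the identity in the preferred charts (helper19)

For such a map `p` the pull-back of a form `α` is `fun y => α (p y)`.
-/

set_option linter.all false

open scoped Manifold ContDiff Topology
open Set Filter MeasureTheory

noncomputable section

namespace Vale.Agent.P247V

open Vale.Agent.P247.SCY Vale.Agent.P247.SCY.HS Vale.Agent.P247X Vale.Agent.P247M
open Vale.Agent.P267.H175 (SmAt dF)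
open Vale.Agent.P267

section et

variable {X Y : Type} [TopologicalSpace X] [ChartedSpace E4 X] [TopologicalSpace Y]
  [ChartedSpace E4 Y] {k : ℕ}

/-- `p` is a local homeomorphism which is the identity in the preferred charts -/
structure Et (p : Y → X) : Prop where
  lh : IsLocalHomeomorph p
  chart : ∀ y, ∀ᶠ y' in 𝓝 y, chartAt E4 y y' = chartAt E4 (p y) (p y')

/-- the pull-back of a form by a map which is the identity in the preferred charts -/
def up (p : Y → X) (α : Form X k) : Form Y k := fun y => α (p y)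

theorem rf_up (p : Y → X) (α : Form X k) : rf (up p α) = fun y => rf α (p y) := rfl

theorem quot_up (p : Y → X) (μ : Form X 4) (α β : Form X 2) (y : Y) :
    quot (up p μ) (up p α) (up p β) y = quot μ α β (p y) := rfl

theorem Jw_up (p : Y → X) (w : Tri X) (y : Y) :
    (Jw (fun i => up p (w i)) y : E4 →L[ℝ] E4) = Jw w (p y) := rfl

namespace Et

variable {p : Y → X} (h : Et p)
include h

theorem cont : Continuous p := h.lh.continuous

theorem chart_self (y : Y) : chartAt E4 y y = chartAt E4 (p y) (p y) := (h.chart y).self_of_nhds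

theorem symm_ev (y : Y) : ∀ᶠ z in 𝓝 (chartAt E4 y y),
    p ((chartAt E4 y).symm z) = (chartAt E4 (p y)).symm z := by
  have h1 := tendsto_symm (mem_chart_source E4 y)
  have h2 : ∀ᶠ y' in 𝓝 y, p y' ∈ (chartAt E4 (p y)).source :=
    h.cont.continuousAt.eventually ((chartAt E4 (p y)).open_source.mem_nhds (mem_chart_source E4 _))
  filter_upwards [h1.eventually (h.chart y), h1.eventually h2,
    (chartAt E4 y).open_target.mem_nhds (mem_chart_target E4 y)] with z a b c
  rw [(chartAt E4 y).right_inv c] at a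
  rw [a, (chartAt E4 (p y)).left_inv b, ← a]

theorem loc_ev (a : RF X k) (y : Y) : H175.loc (chartAt E4 y) (fun y' => a (p y'))
    =ᶠ[𝓝 (chartAt E4 y y)] H175.loc (chartAt E4 (p y)) a := by
  filter_upwards [(h.symm_ev y).eventually_nhds,
    (chartAt E4 y).open_target.mem_nhds (mem_chart_target E4 y)] with z hz hz'
  have h0 := hz.self_of_nhds
  have h1 : (fun t => chartAt E4 ((chartAt E4 y).symm z) ((chartAt E4 y).symm t)) =ᶠ[𝓝 z]
      fun t => chartAt E4 ((chartAt E4 (p y)).symm z) ((chartAt E4 (p y)).symm t) := by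
    filter_upwards [hz, ((chartAt E4 y).continuousAt_symm hz').eventually
      (h.chart ((chartAt E4 y).symm z))] with t a b
    rw [b, a, h0]
  unfold H175.loc
  rw [h1.fderiv_eq]
  show (a (p ((chartAt E4 y).symm z))).compContinuousLinearMap _ = _
  rw [h0]

theorem smAt_iff {a : RF X k} {y : Y} : SmAt (fun y' => a (p y')) y ↔ SmAt a (p y) := by
  unfold SmAt
  rw [← h.chart_self y]
  exact ⟨fun h1 => h1.congr_of_eventuallyEq (h.loc_ev a y).symm,
    fun h1 => h1.congr_of_eventuallyEq (h.loc_ev a y)⟩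

theorem dF_up (a : RF X k) (y : Y) : dF (fun y' => a (p y')) y = dF a (p y) := by
  unfold dF
  rw [← h.chart_self y]
  exact (h.loc_ev a y).extDeriv_eq

theorem written (y : Y) : writtenInExtChartAt (𝓡 4) (𝓡 4) y p =ᶠ[𝓝 (chartAt E4 y y)] id := by
  filter_upwards [h.symm_ev y, h.chart_self y ▸
    (chartAt E4 (p y)).open_target.mem_nhds (mem_chart_target E4 (p y))] with z a b
  show chartAt E4 (p y) (p ((chartAt E4 y).symm z)) = z
  rw [a, (chartAt E4 (p y)).right_inv b]

theorem smooth : ContMDiff (𝓡 4) (𝓡 4) ∞ p := by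
  intro y
  rw [contMDiffAt_iff]
  refine ⟨h.cont.continuousAt, ?_⟩
  have h1 : ContDiffAt ℝ ∞ (writtenInExtChartAt (𝓡 4) (𝓡 4) y p) (chartAt E4 y y) :=
    contDiffAt_id.congr_of_eventuallyEq (h.written y)
  exact h1.contDiffWithinAt

theorem mdiff (y : Y) : MDifferentiableAt (𝓡 4) (𝓡 4) p y :=
  (h.smooth y).mdifferentiableAt (by simp)

theorem mfderiv_eq (y : Y) : (mfderiv (𝓡 4) (𝓡 4) p y : E4 →L[ℝ] E4) = ContinuousLinearMap.id ℝ E4 := by
  rw [(h.mdiff y).mfderiv]
  simp only [modelWithCornersSelf_coe, range_id, fderivWithin_univ]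
  have h1 : (extChartAt (𝓡 4) y) y = chartAt E4 y y := rfl
  rw [h1, (h.written y).fderiv_eq, fderiv_id]

theorem mfderiv_apply (y : Y) (v : E4) : mfderiv (𝓡 4) (𝓡 4) p y v = v :=
  congrArg (fun L : E4 →L[ℝ] E4 => L v) (h.mfderiv_eq y)

/-- `up` is the pull-back -/
theorem up_eq (α : Form X k) (y : Y) :
    up p α y = (α (p y)).compContinuousLinearMap (mfderiv (𝓡 4) (𝓡 4) p y) := by
  ext v
  show α (p y) v = α (p y) (fun i => mfderiv (𝓡 4) (𝓡 4) p y (v i))
  congr 1
  funext i
  exact (h.mfderiv_apply y (v i)).symm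

theorem mfderiv_comp {V : Type*} [NormedAddCommGroup V] [NormedSpace ℝ V] {g : X → V} {y : Y}
    (hg : MDifferentiableAt (𝓡 4) 𝓘(ℝ, V) g (p y)) (v : E4) :
    mfderiv (𝓡 4) 𝓘(ℝ, V) (fun y' => g (p y')) y v = mfderiv (𝓡 4) 𝓘(ℝ, V) g (p y) v := by
  have h1 := mfderiv_comp_apply (I := 𝓡 4) (I' := 𝓡 4) (I'' := 𝓘(ℝ, V)) y hg (h.mdiff y) v
  rw [h.mfderiv_apply] at h1
  exact h1

theorem smC {g : X → ℂ} {y : Y} (hg : SmC g (p y)) : SmC (fun y' => g (p y')) y :=
  hg.comp y (h.smooth y)

theorem smF {g : X → ℝ} {y : Y} (hg : SmF g (p y)) : SmF (fun y' => g (p y')) y :=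
  hg.comp y (h.smooth y)

theorem dfc_up {g : X → ℂ} {y : Y} (hg : SmC g (p y)) (v : E4) :
    dfc (fun y' => g (p y')) y v = dfc g (p y) v :=
  h.mfderiv_comp (hg.mdifferentiableAt (by simp)) v

theorem Df_up (g : X → ℝ) (y : Y) : Df (fun y' => g (p y')) y = Df g (p y) := by
  unfold Df
  rw [← h.chart_self y]
  apply Filter.EventuallyEq.fderiv_eq
  filter_upwards [h.symm_ev y] with z a
  rw [a]

variable [IsManifold (𝓡 4) ∞ X] [IsManifold (𝓡 4) ∞ Y]

theorem smooth_up {α : Form X k} (hα : Smooth α) : Smooth (up p α) :=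
  smooth_iff.2 fun y => h.smAt_iff.2 (smooth_iff.1 hα (p y))

theorem sc_up {α : Form X k} (hα : SC α) : SC (up p α) :=
  sc_iff.2 ⟨fun y => h.smAt_iff.2 ((sc_iff.1 hα).1 (p y)), fun y => by
    rw [rf_up, h.dF_up]; exact (sc_iff.1 hα).2 (p y)⟩

theorem exact_up {α : Form X 2} (hα : Exact α) : Exact (up p α) := by
  obtain ⟨η, h1, h2⟩ := exact_iff.1 hα
  refine exact_iff.2 ⟨fun y => η (p y), fun y => h.smAt_iff.2 (h1 _), ?_⟩
  funext y
  rw [h.dF_up, h2]
  rfl

theorem coh_up {α β : Form X 2} (hα : Coh α β) : Coh (up p α) (up p β) := h.exact_up hα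

theorem volume_up {μ : Form X 4} (hμ : Volume μ) : Volume (up p μ) :=
  ⟨h.smooth_up hμ.smooth, fun y => hμ.ne_zero (p y)⟩

theorem hyp_up {μ : Form X 4} {w : Tri X} (hw : Hypersymplectic μ w) :
    Hypersymplectic (up p μ) fun i => up p (w i) :=
  ⟨fun i => h.smooth_up (hw.smooth i), fun i => (h.sc_up (hyp_sc hw i)).2,
    fun y => hw.posDef (p y)⟩

/-- the pull-back of a line bundle -/
def lb (L : LB X) : LB Y :=
  mkLB (ι := Fin L.n) (Equiv.refl _) (fun i => p ⁻¹' L.U i) (fun i => (L.opn i).preimage h.cont)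
    (fun y => L.cov (p y)) (fun i j y => L.g i j (p y))
    (fun _ _ _ hy => h.smC (L.smC hy)) (fun i j y hy => L.g_norm i j (p y) hy)
    (fun i j l y hy => L.g_co i j l (p y) hy) (fun i y => rf (L.A i) (p y))
    (fun _ _ hy => h.smAt_iff.2 (L.smA hy))
    (fun i j y hy v => by rw [h.dfc_up (L.smC hy)]; exact L.trA hy v)
    (up p L.F) (h.sc_up L.F_sc) (fun i y hy => by rw [h.dF_up]; exact L.dFA hy)

theorem lb_F (L : LB X) : (h.lb L).F = up p L.F := rfl

theorem lb_U (L : LB X) (i : Fin L.n) : (h.lb L).U i = p ⁻¹' L.U i := rfl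

theorem lb_g (L : LB X) (i j : Fin L.n) (y : Y) : (h.lb L).g i j y = L.g i j (p y) := rfl

theorem lb_A (L : LB X) (i : Fin L.n) : (h.lb L).A i = up p (L.A i) := rfl

/-! ### the measure -/

variable [MeasurableSpace X] [BorelSpace X] [MeasurableSpace Y] [BorelSpace Y]

omit [IsManifold (𝓡 4) ∞ X] [IsManifold (𝓡 4) ∞ Y] in
theorem meas_small (y : Y) : ∃ W : Set Y, IsOpen W ∧ y ∈ W ∧
    ∀ E ⊆ W, MeasurableSet E → MeasurableSet (p '' E) := by
  classical
  obtain ⟨e, he, rfl⟩ := h.lh y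
  refine ⟨e.source, e.open_source, he, fun E hE hm => ?_⟩
  have h1 : Measurable (e.target.piecewise e.symm (fun _ => y)) :=
    ContinuousOn.measurable_piecewise e.continuousOn_symm continuousOn_const
      e.open_target.measurableSet
  have h2 : e '' E = (e.target.piecewise e.symm (fun _ => y)) ⁻¹' E ∩ e.target := by
    ext z
    constructor
    · rintro ⟨a, ha, rfl⟩
      have h4 := e.map_source (hE ha)
      refine ⟨?_, h4⟩
      rw [mem_preimage, Set.piecewise_eq_of_mem _ _ _ h4, e.left_inv (hE ha)]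
      exact ha
    · rintro ⟨h3, h4⟩
      rw [mem_preimage, Set.piecewise_eq_of_mem _ _ _ h4] at h3
      exact ⟨_, h3, e.right_inv h4⟩
  rw [h2]
  exact (h1 hm).inter e.open_target.measurableSet

theorem vol_small (μ : Form X 4) (y : Y) : ∃ W : Set Y, IsOpen W ∧ y ∈ W ∧
    ∀ E ⊆ W, MeasurableSet E → MeasurableSet (p '' E) ∧ vol (up p μ) E = vol μ (p '' E) := by
  obtain ⟨W0, o0, m0, h0⟩ := h.meas_small y
  have t1 : Tendsto (chartAt E4 y) (𝓝 y) (𝓝 (chartAt E4 y y)) :=
    (chartAt E4 y).continuousAt (mem_chart_source E4 y)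
  have h2 : ∀ᶠ y' in 𝓝 y, p y' ∈ (chartAt E4 (p y)).source :=
    h.cont.continuousAt.eventually ((chartAt E4 (p y)).open_source.mem_nhds (mem_chart_source E4 _))
  obtain ⟨W, hW, oW, mW⟩ := eventually_nhds_iff.1 (((h.chart y).and h2).and
    ((t1.eventually (h.loc_ev (rf μ) y)).and
      ((chartAt E4 y).open_source.mem_nhds (mem_chart_source E4 y))))
  refine ⟨W ∩ W0, oW.inter o0, ⟨mW, m0⟩, fun E hE hm => ?_⟩
  have hm' := h0 E (fun a ha => (hE ha).2) hm
  refine ⟨hm', ?_⟩
  have he := chart_mem_atlas E4 y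
  have he' := chart_mem_atlas E4 (p y)
  have s1 : E ⊆ (chartAt E4 y).source := fun a ha => (hW a (hE ha).1).2.2
  have s2 : p '' E ⊆ (chartAt E4 (p y)).source := by
    rintro _ ⟨a, ha, rfl⟩
    exact (hW a (hE ha).1).1.2
  rw [vol_apply he _ hm s1, vol_apply he' _ hm' s2, P247M.volC_apply _ _ hm,
    P247M.volC_apply _ _ hm']
  have e1 : (chartAt E4 y).symm ⁻¹' E ∩ (chartAt E4 y).target =
      (chartAt E4 (p y)).symm ⁻¹' (p '' E) ∩ (chartAt E4 (p y)).target := by
    ext z
    constructor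
    · rintro ⟨a, b⟩
      obtain ⟨⟨c1, c2⟩, -⟩ := hW _ (hE a).1
      rw [(chartAt E4 y).right_inv b] at c1
      refine ⟨⟨_, a, ?_⟩, ?_⟩
      · conv_rhs => rw [c1]
        exact ((chartAt E4 (p y)).left_inv c2).symm
      · rw [c1]
        exact (chartAt E4 (p y)).map_source c2
    · rintro ⟨⟨a, ha, b⟩, c⟩
      obtain ⟨⟨c1, c2⟩, -, c3⟩ := hW _ (hE ha).1
      have : z = chartAt E4 y a := by rw [c1, b, (chartAt E4 (p y)).right_inv c]
      rw [this]
      refine ⟨?_, (chartAt E4 y).map_source c3⟩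
      rw [mem_preimage, (chartAt E4 y).left_inv c3]
      exact ha
  rw [← e1]
  refine setLIntegral_congr_fun (P247M.measurableSet_symm _ hm) fun z hz => ?_
  have hz' := hz
  rw [e1] at hz'
  have c4 := (hW _ (hE hz.1).1).2.1
  rw [(chartAt E4 y).right_inv hz.2] at c4
  show ENNReal.ofReal |mC _ _ z| = ENNReal.ofReal |mC _ _ z|
  rw [mC_eq he _ hz.2, mC_eq he' _ hz'.2, rf_up, c4]

variable [CompactSpace Y]

theorem vol_up (μ : Form X 4) {E : Set Y} (hE : MeasurableSet E) (hinj : InjOn p E) :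
    MeasurableSet (p '' E) ∧ vol (up p μ) E = vol μ (p '' E) := by
  choose W oW mW hW using h.vol_small μ
  obtain ⟨t, ht⟩ := isCompact_univ.elim_finite_subcover W oW
    (fun x _ => mem_iUnion.2 ⟨x, mW x⟩)
  let n := t.card
  let q : Fin n → Y := fun i => (t.equivFin.symm i : Y)
  let D : Fin n → Set Y := disjointed fun i => W (q i)
  have hDm : ∀ i, MeasurableSet (D i) := by
    intro i
    show MeasurableSet (disjointed _ i)
    rw [disjointed_apply, Finset.sup_set_eq_biUnion]
    exact (oW (q i)).measurableSet.diff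
      (Finset.measurableSet_biUnion _ fun j _ => (oW (q j)).measurableSet)
  have hDd : Pairwise (Function.onFun Disjoint D) := disjoint_disjointed _
  have hDu : ⋃ i, D i = univ := by
    show ⋃ i, disjointed _ i = univ
    rw [iUnion_disjointed]
    refine eq_univ_of_forall fun x => ?_
    obtain ⟨y, hy, hx⟩ := mem_iUnion₂.1 (ht (mem_univ x))
    refine mem_iUnion.2 ⟨t.equivFin ⟨y, hy⟩, ?_⟩
    simpa [q] using hx
  have hSm : ∀ i, MeasurableSet (D i ∩ E) := fun i => (hDm i).inter hE
  have hSu : E = ⋃ i, D i ∩ E := by rw [← iUnion_inter, hDu, univ_inter]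
  have hSd : Pairwise (Function.onFun Disjoint fun i => D i ∩ E) := fun i j hij =>
    (hDd hij).mono inter_subset_left inter_subset_left
  have hs : ∀ i, MeasurableSet (p '' (D i ∩ E)) ∧
      vol (up p μ) (D i ∩ E) = vol μ (p '' (D i ∩ E)) := fun i =>
    hW (q i) _ (inter_subset_left.trans (disjointed_subset (fun i => W (q i)) i)) (hSm i)
  have hId : Pairwise (Function.onFun Disjoint fun i => p '' (D i ∩ E)) := fun i j hij =>
    (disjoint_image_image fun a ha b hb e =>
      Set.disjoint_left.1 (hSd hij) ha (hinj hb.2 ha.2 e.symm ▸ hb))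
  constructor
  · rw [hSu, image_iUnion]
    exact MeasurableSet.iUnion fun i => (hs i).1
  · conv_lhs => rw [hSu]
    conv_rhs => rw [hSu, image_iUnion]
    rw [measure_iUnion hSd hSm, measure_iUnion hId fun i => (hs i).1]
    exact tsum_congr fun i => (hs i).2

theorem map_restrict (μ : Form X 4) {E : Set Y} (hE : MeasurableSet E) (hinj : InjOn p E) :
    Measure.map p ((vol (up p μ)).restrict E) = (vol μ).restrict (p '' E) := by
  ext A hA
  rw [Measure.map_apply h.cont.measurable hA, Measure.restrict_apply (h.cont.measurable hA),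
    Measure.restrict_apply hA, ← image_preimage_inter]
  exact (h.vol_up μ ((h.cont.measurable hA).inter hE) (hinj.mono inter_subset_right)).2

theorem setIntegral_up (μ : Form X 4) {E : Set Y} (hE : MeasurableSet E) (hinj : InjOn p E)
    {g : X → ℝ} (hg : AEStronglyMeasurable g (vol μ)) :
    ∫ y in E, g (p y) ∂(vol (up p μ)) = ∫ x in p '' E, g x ∂(vol μ) := by
  rw [← h.map_restrict μ hE hinj, integral_map h.cont.measurable.aemeasurable]
  rw [h.map_restrict μ hE hinj]
  exact hg.restrict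

end Et

end et

end Vale.Agent.P247V
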